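import Vale.Agent.P065.KSetDefs

/-!
# P065: levels in arrangements of lines (support definitions, not a hand-in file)

A pair `l = (a, b)` of reals stands for the nonvertical line `y = a x + b`.
-/

namespace Vale.Agent.P065L

/-- the height `a x + b` of the line `l = (a, b)` at the abscissa `x` -/
def ht (l : ℝ × ℝ) (x : ℝ) : ℝ := l.1 * x + l.2

/-- The lines of `L` have distinct slopes and no point of the plane lies on three of them. -/
def IsSimple (L : Finset (ℝ × ℝ)) : Prop :=
  (∀ l ∈ L, ∀ m ∈ L, l.1 = m.1 → l = m) ∧ ∀ v : ℝ × ℝ, {l ∈ L | ht l v.1 = v.2}.card ≤ 2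

/-- the vertices of `L` (points on two lines of `L`) with exactly `k` lines strictly below them -/
def levelBelow (L : Finset (ℝ × ℝ)) (k : ℕ) : Set (ℝ × ℝ) :=
  {v | {l ∈ L | ht l v.1 = v.2}.card = 2 ∧ {l ∈ L | ht l v.1 < v.2}.card = k}

/-- the vertices of `L` (points on two lines of `L`) with exactly `k` lines strictly above them -/
def levelAbove (L : Finset (ℝ × ℝ)) (k : ℕ) : Set (ℝ × ℝ) :=
  {v | {l ∈ L | ht l v.1 = v.2}.card = 2 ∧ {l ∈ L | v.2 < ht l v.1}.card = k}

end Vale.Agent.P065L
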