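import Vale.Agent.P065L43.Defs

/-!
# P065: a vertex of level `k` gives a `(k + 1)`-set of the dual points, injectively
-/

namespace Vale.Agent.P065L

open Finset Filter Topology Vale.Agent.P065

theorem genPos {L : Finset (ℝ × ℝ)} (h : IsSimple L) : GenPos L := by
  intro a ha b hb c hc hab hac hbc hcol
  obtain ⟨w, hw⟩ := (collinear_iff_of_mem (p₀ := a) (by simp)).1 hcol
  obtain ⟨r, hr⟩ := hw b (by simp)
  obtain ⟨s, hs⟩ := hw c (by simp)
  have hb1 : b.1 = r * w.1 + a.1 := by rw [hr]; simp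
  have hb2 : b.2 = r * w.2 + a.2 := by rw [hr]; simp
  have hc1 : c.1 = s * w.1 + a.1 := by rw [hs]; simp
  have hc2 : c.2 = s * w.2 + a.2 := by rw [hs]; simp
  have hw1 : w.1 ≠ 0 := fun h0 => hab (h.1 a ha b hb (by rw [hb1, h0]; ring))
  have hx : w.1 * (-w.2 / w.1) + w.2 = 0 := by field_simp; ring
  have hsub : ({a, b, c} : Finset (ℝ × ℝ)) ⊆
      {l ∈ L | ht l (-w.2 / w.1, ht a (-w.2 / w.1)).1 = (-w.2 / w.1, ht a (-w.2 / w.1)).2} := by
    intro p hp
    simp only [mem_insert, mem_singleton] at hp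
    rcases hp with rfl | rfl | rfl
    · exact mem_filter.2 ⟨ha, rfl⟩
    · refine mem_filter.2 ⟨hb, ?_⟩
      simp only [ht, hb1, hb2]
      linear_combination r * hx
    · refine mem_filter.2 ⟨hc, ?_⟩
      simp only [ht, hc1, hc2]
      linear_combination s * hx
  have h3 : ({a, b, c} : Finset (ℝ × ℝ)).card = 3 := card_eq_three.2 ⟨a, b, c, hab, hac, hbc, rfl⟩
  have := (card_le_card hsub).trans (h.2 _)
  omega

/-- the two lines through a vertex, ordered by slope -/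
theorem two_lines {L : Finset (ℝ × ℝ)} (h : IsSimple L) {v : ℝ × ℝ}
    (hv : {l ∈ L | ht l v.1 = v.2}.card = 2) :
    ∃ l ∈ L, ∃ m ∈ L, l.1 < m.1 ∧ ht l v.1 = v.2 ∧ ht m v.1 = v.2 ∧
      ∀ p ∈ L, ht p v.1 = v.2 → p = l ∨ p = m := by
  obtain ⟨l, m, hlm, he⟩ := card_eq_two.1 hv
  have hl : l ∈ ({l ∈ L | ht l v.1 = v.2} : Finset _) := by rw [he]; simp
  have hm : m ∈ ({l ∈ L | ht l v.1 = v.2} : Finset _) := by rw [he]; simp
  rw [mem_filter] at hl hm
  have hp : ∀ p ∈ L, ht p v.1 = v.2 → p = l ∨ p = m := fun p hp hp' => by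
    have : p ∈ ({l ∈ L | ht l v.1 = v.2} : Finset _) := mem_filter.2 ⟨hp, hp'⟩
    rw [he] at this
    simpa using this
  rcases lt_trichotomy l.1 m.1 with h1 | h1 | h1
  · exact ⟨l, hl.1, m, hm.1, h1, hl.2, hm.2, hp⟩
  · exact absurd (h.1 l hl.1 m hm.1 h1) hlm
  · exact ⟨m, hm.1, l, hl.1, h1, hm.2, hl.2, fun p a b => (hp p a b).symm⟩

open Classical in
/-- the lines below `v` and the line of smaller slope through `v` -/
noncomputable def low (L : Finset (ℝ × ℝ)) (v : ℝ × ℝ) : Finset (ℝ × ℝ) :=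
  {p ∈ L | ht p v.1 < v.2 ∨ (ht p v.1 = v.2 ∧ ∃ q ∈ L, ht q v.1 = v.2 ∧ p.1 < q.1)}

theorem mem_low {L : Finset (ℝ × ℝ)} {v l m : ℝ × ℝ} (hl : l ∈ L) (hm : m ∈ L) (hlm : l.1 < m.1)
    (hlv : ht l v.1 = v.2) (hmv : ht m v.1 = v.2)
    (hp : ∀ p ∈ L, ht p v.1 = v.2 → p = l ∨ p = m) (p : ℝ × ℝ) :
    p ∈ low L v ↔ p = l ∨ (p ∈ L ∧ ht p v.1 < v.2) := by
  classical
  unfold low
  rw [mem_filter]
  constructor
  · rintro ⟨hpL, h1 | ⟨h1, q, hq, hq1, hq2⟩⟩
    · exact Or.inr ⟨hpL, h1⟩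
    · rcases hp p hpL h1 with rfl | rfl
      · exact Or.inl rfl
      · rcases hp q hq hq1 with rfl | rfl
        · exact absurd hq2 (not_lt.2 hlm.le)
        · exact absurd hq2 (lt_irrefl _)
  · rintro (rfl | ⟨h1, h2⟩)
    · exact ⟨hl, Or.inr ⟨hlv, m, hm, hmv, hlm⟩⟩
    · exact ⟨h1, Or.inl h2⟩

theorem isKSet_low {L : Finset (ℝ × ℝ)} (h : IsSimple L) {k : ℕ} {v : ℝ × ℝ}
    (hv : v ∈ levelBelow L k) : IsKSet L (k + 1) (low L v) ∧ k + 2 ≤ L.card := by
  classical
  obtain ⟨l, hl, m, hm, hlm, hlv, hmv, hp⟩ := two_lines h hv.1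
  have hmem := mem_low hl hm hlm hlv hmv hp
  have hsub : low L v ⊆ L := fun p hp' => by
    rcases (hmem p).1 hp' with rfl | h1
    exacts [hl, h1.1]
  have he : low L v = insert l {p ∈ L | ht p v.1 < v.2} := by
    ext p; rw [hmem, mem_insert, mem_filter]
  have hcard : (low L v).card = k + 1 := by
    rw [he, card_insert_of_notMem (by rw [mem_filter, hlv]; exact fun h1 => lt_irrefl _ h1.2)]
    exact congrArg (· + 1) (by convert hv.2)
  have hml : m ∉ low L v := fun h1 => by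
    rcases (hmem m).1 h1 with h2 | h2
    · rw [h2] at hlm; exact lt_irrefl _ hlm
    · rw [hmv] at h2; exact lt_irrefl _ h2.2
  refine ⟨⟨hsub, hcard, ?_⟩, ?_⟩
  · set μ := (l.1 + m.1) / 2 with hμ
    have hev : ∀ p ∈ L, ∀ᶠ δ in 𝓝[>] (0 : ℝ),
        (ht p v.1 < v.2 → ht p v.1 + δ * p.1 < v.2 + δ * μ) ∧
        (v.2 < ht p v.1 → v.2 + δ * μ < ht p v.1 + δ * p.1) := fun p _ => by
      refine eventually_nhdsWithin_of_eventually_nhds ?_
      have c1 : ContinuousAt (fun δ : ℝ => ht p v.1 + δ * p.1) 0 := by fun_prop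
      have c2 : ContinuousAt (fun δ : ℝ => v.2 + δ * μ) 0 := by fun_prop
      refine Eventually.and ?_ ?_
      · by_cases h1 : ht p v.1 < v.2
        · exact (c1.eventually_lt c2 (by simpa using h1)).mono fun _ a _ => a
        · exact Eventually.of_forall fun _ a => absurd a h1
      · by_cases h1 : v.2 < ht p v.1
        · exact (c2.eventually_lt c1 (by simpa using h1)).mono fun _ a _ => a
        · exact Eventually.of_forall fun _ a => absurd a h1
    obtain ⟨δ, hδ, hδ0⟩ :=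
      (((eventually_all_finset L).2 hev).and self_mem_nhdsWithin).exists
    have hδ0 : 0 < δ := hδ0
    refine ⟨v.1 + δ, 1, v.2 + δ * μ, Or.inr one_ne_zero, fun z hz => ?_, fun z hz hz' => ?_⟩
    · have e : (v.1 + δ) * z.1 + 1 * z.2 = ht z v.1 + δ * z.1 := by unfold ht; ring
      rw [e]
      rcases (hmem z).1 hz with rfl | h1
      · rw [hlv]
        have : δ * z.1 < δ * μ := mul_lt_mul_of_pos_left (by rw [hμ]; linarith) hδ0
        linarith
      · exact (hδ z h1.1).1 h1.2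
    · have e : (v.1 + δ) * z.1 + 1 * z.2 = ht z v.1 + δ * z.1 := by unfold ht; ring
      rw [e]
      rcases lt_trichotomy (ht z v.1) v.2 with h1 | h1 | h1
      · exact absurd ((hmem z).2 (Or.inr ⟨hz, h1⟩)) hz'
      · rcases hp z hz h1 with rfl | rfl
        · exact absurd ((hmem z).2 (Or.inl rfl)) hz'
        · rw [hmv]
          have : δ * μ < δ * z.1 := mul_lt_mul_of_pos_left (by rw [hμ]; linarith) hδ0
          linarith
      · exact (hδ z hz).2 h1
  · have := card_lt_card (ssubset_iff_of_subset hsub |>.2 ⟨m, hm, hml⟩)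
    omega

theorem low_le {L : Finset (ℝ × ℝ)} (h : IsSimple L) {v w : ℝ × ℝ}
    (hv : {l ∈ L | ht l v.1 = v.2}.card = 2) (hw : {l ∈ L | ht l w.1 = w.2}.card = 2)
    (e : low L v = low L w) : v.1 ≤ w.1 ∧ (v.1 = w.1 → v.2 = w.2) := by
  obtain ⟨l, hl, m, hm, hlm, hlv, hmv, hp⟩ := two_lines h hv
  obtain ⟨l', hl', m', hm', hlm', hlv', hmv', hp'⟩ := two_lines h hw
  have a := mem_low hl hm hlm hlv hmv hp
  have b := mem_low hl' hm' hlm' hlv' hmv' hp'
  have h1 : ht l w.1 ≤ w.2 := by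
    rcases (b l).1 (e ▸ (a l).2 (Or.inl rfl)) with h2 | h2
    · rw [h2, hlv']
    · exact h2.2.le
  have h2 : w.2 ≤ ht m w.1 := by
    refine not_lt.1 fun h3 => ?_
    rcases (a m).1 (e ▸ (b m).2 (Or.inr ⟨hm, h3⟩)) with h4 | h4
    · rw [h4] at hlm; exact lt_irrefl _ hlm
    · rw [hmv] at h4; exact lt_irrefl _ h4.2
  refine ⟨?_, fun hx => ?_⟩
  · unfold ht at h1 h2 hlv hmv
    by_contra h3
    have := mul_pos (sub_pos.2 hlm) (sub_pos.2 (not_le.1 h3))
    nlinarith
  · rw [← hx, hlv] at h1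
    rw [← hx, hmv] at h2
    exact le_antisymm h1 h2

theorem below_le {L : Finset (ℝ × ℝ)} (h : IsSimple L) (k : ℕ) :
    (levelBelow L k).Finite ∧ (levelBelow L k).ncard ≤ kSetNumber L (k + 1) := by
  classical
  have hinj : Set.InjOn (low L) (levelBelow L k) := fun v hv w hw e => by
    have h1 := low_le h hv.1 hw.1 e
    have h2 := low_le h hw.1 hv.1 e.symm
    have h3 := le_antisymm h1.1 h2.1
    exact Prod.ext h3 (h1.2 h3)
  have hmap : ∀ v ∈ levelBelow L k,
      low L v ∈ (({S ∈ L.powerset | IsKSet L (k + 1) S} : Finset _) : Set (Finset (ℝ × ℝ))) :=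
    fun v hv => by
      have := (isKSet_low h hv).1
      exact mem_coe.2 (mem_filter.2 ⟨mem_powerset.2 this.1, this⟩)
  refine ⟨Set.Finite.of_injOn hmap hinj (finite_toSet _), ?_⟩
  have := Set.ncard_le_ncard_of_injOn _ hmap hinj (finite_toSet _)
  rw [Set.ncard_coe_finset] at this
  unfold kSetNumber
  convert this

theorem below_bound {ε C : ℝ}
    (hC : ∀ (P : Finset (ℝ × ℝ)) (k : ℕ), GenPos P → 1 ≤ k →
      k + 1 ≤ P.card → (kSetNumber P k : ℝ) ≤ C * P.card * (k : ℝ) ^ ε)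
    {L : Finset (ℝ × ℝ)} (h : IsSimple L) (k : ℕ) :
    ((levelBelow L k).ncard : ℝ) ≤ |C| * L.card * ((k : ℝ) + 1) ^ ε := by
  rcases (levelBelow L k).eq_empty_or_nonempty with he | ⟨v, hv⟩
  · rw [he, Set.ncard_empty, Nat.cast_zero]; positivity
  · have h1 := hC L (k + 1) (genPos h) (by omega) (isKSet_low h hv).2
    have h2 : ((levelBelow L k).ncard : ℝ) ≤ kSetNumber L (k + 1) := by
      exact_mod_cast (below_le h k).2
    push_cast at h1
    refine (h2.trans h1).trans ?_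
    gcongr
    exact le_abs_self C

/-- reflection in the `x`-axis -/
theorem refl_simple {L : Finset (ℝ × ℝ)} (h : IsSimple L) :
    IsSimple (L.map (Equiv.neg (ℝ × ℝ)).toEmbedding) := by
  refine ⟨fun l hl m hm e => ?_, fun v => ?_⟩
  · obtain ⟨a, ha, rfl⟩ := mem_map.1 hl
    obtain ⟨b, hb, rfl⟩ := mem_map.1 hm
    rw [h.1 a ha b hb (by simpa using e)]
  · rw [filter_map, card_map]
    refine le_trans (le_of_eq ?_) (h.2 (v.1, -v.2))
    refine congrArg card (filter_congr fun p _ => ?_)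
    simp only [ht, Function.comp, Equiv.coe_toEmbedding, Equiv.neg_apply, Prod.fst_neg,
      Prod.snd_neg]
    constructor <;> intro a <;> linarith

theorem refl_mem {L : Finset (ℝ × ℝ)} {k : ℕ} {v : ℝ × ℝ} (hv : v ∈ levelAbove L k) :
    (v.1, -v.2) ∈ levelBelow (L.map (Equiv.neg (ℝ × ℝ)).toEmbedding) k := by
  refine ⟨?_, ?_⟩
  · rw [filter_map, card_map, ← hv.1]
    refine congrArg card (filter_congr fun p _ => ?_)
    simp only [ht, Function.comp, Equiv.coe_toEmbedding, Equiv.neg_apply, Prod.fst_neg,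
      Prod.snd_neg]
    constructor <;> intro a <;> linarith
  · rw [filter_map, card_map, ← hv.2]
    refine congrArg card (filter_congr fun p _ => ?_)
    simp only [ht, Function.comp, Equiv.coe_toEmbedding, Equiv.neg_apply, Prod.fst_neg,
      Prod.snd_neg]
    constructor <;> intro a <;> linarith

theorem levels {ε C : ℝ}
    (hC : ∀ (P : Finset (ℝ × ℝ)) (k : ℕ), GenPos P → 1 ≤ k →
      k + 1 ≤ P.card → (kSetNumber P k : ℝ) ≤ C * P.card * (k : ℝ) ^ ε)
    (L : Finset (ℝ × ℝ)) (k : ℕ) (h : IsSimple L) :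
    (levelBelow L k).Finite ∧ (levelAbove L k).Finite ∧
    ((levelBelow L k).ncard : ℝ) ≤ |C| * L.card * ((k : ℝ) + 1) ^ ε ∧
    ((levelAbove L k).ncard : ℝ) ≤ |C| * L.card * ((k : ℝ) + 1) ^ ε := by
  have h' := refl_simple h
  have hinj : Set.InjOn (fun v : ℝ × ℝ => (v.1, -v.2)) (levelAbove L k) := fun v _ w _ e => by
    simp only [Prod.mk.injEq, neg_inj] at e
    exact Prod.ext e.1 e.2
  have hf := (below_le h' k).1
  refine ⟨(below_le h k).1, Set.Finite.of_injOn (fun v hv => refl_mem hv) hinj hf,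
    below_bound hC h k, ?_⟩
  have h1 := Set.ncard_le_ncard_of_injOn _ (fun v hv => refl_mem hv) hinj hf
  have h2 := below_bound hC h' k
  rw [card_map] at h2
  exact le_trans (by exact_mod_cast h1) h2

end Vale.Agent.P065L
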